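import Vale.Agent.P040.SymSphere

/-! P040: Zarankiewicz's bound for geodesic drawings with one antipodally symmetric class. -/

namespace Vale.Agent.Results.P040.AntipodalClassGeodesic

open Vale.Agent.P040

theorem result {k r n : ℕ} (hr : r ≤ 1) (v : Fin k → Vec) (o : Fin r → Vec) (b : Fin n → Vec)
    (hacb : ∀ x y : (Fin k × Bool) ⊕ Fin r, Sum.map Prod.fst id x ≠ Sum.map Prod.fst id y →
      ∀ i, det3 (symClass v o x) (symClass v o y) (b i) ≠ 0)
    (habd : ∀ x, ∀ i j, i ≠ j → det3 (symClass v o x) (b i) (b j) ≠ 0) :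
    ((2 * k + r) / 2) * ((2 * k + r - 1) / 2) * ((n / 2) * ((n - 1) / 2)) ≤
      (crossingPairs (symClass v o) b).ncard :=
  crossings_ge_of_symmetric hr v o b hacb habd

end Vale.Agent.Results.P040.AntipodalClassGeodesic
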