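import Vale.Agent.P040.Geo.Plane

namespace Vale.Agent.Results.P040.GeodesicDrawings

open _root_.P040.Geo

/-- Zarankiewicz's lower bound for geodesic spherical and for straight-line drawings of
`K_{m,n}`. -/
theorem result (m n : ℕ) :
    (∀ (A : Fin m → Vale.Agent.P040.Vec) (B : Fin n → Vale.Agent.P040.Vec),
      SphereGenPos (Sum.elim A B) →
      (m / 2) * ((m - 1) / 2) * ((n / 2) * ((n - 1) / 2))
        ≤ (Vale.Agent.P040.crossingPairs A B).ncard) ∧
    (∀ (a : Fin m → ℝ × ℝ) (b : Fin n → ℝ × ℝ),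
      (∀ u v w : Fin m ⊕ Fin n, u ≠ v → v ≠ w → u ≠ w →
        ((Sum.elim a b v).1 - (Sum.elim a b u).1) * ((Sum.elim a b w).2 - (Sum.elim a b u).2)
          ≠ ((Sum.elim a b v).2 - (Sum.elim a b u).2) * ((Sum.elim a b w).1 - (Sum.elim a b u).1)) →
      (m / 2) * ((m - 1) / 2) * ((n / 2) * ((n - 1) / 2)) ≤ (segmentCrossings a b).ncard) :=
  ⟨_root_.P040.Geo.geodesic_bound m n, _root_.P040.Geo.straight_line_bound m n⟩

end Vale.Agent.Results.P040.GeodesicDrawings
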