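import Vale.Agent.P040.Cut.Main

namespace Vale.Agent.Results.P040.TwoPageDrawings

open _root_.P040.TwoBlock

/-- Zarankiewicz's lower bound for all two-page drawings of `K_{m,n}`. -/
theorem result (m n : ℕ) (pa : Fin m → ℕ) (pb : Fin n → ℕ)
    (hpa : Function.Injective pa) (hpb : Function.Injective pb) (hdis : ∀ a i, pa a ≠ pb i)
    (page : Fin m → Fin n → Bool) :
    (m / 2 * ((m - 1) / 2)) * (n / 2 * ((n - 1) / 2)) ≤ crossings pa pb page :=
  _root_.P040.Cut.two_page_bound m n pa pb hpa hpb hdis page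

end Vale.Agent.Results.P040.TwoPageDrawings
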